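import Vale.Agent.P022.H20.Fin
import Vale.Agent.P022.H587.Lim

/-! # P022-L3: from the estimate on the Hecke polynomials to the conclusion of Q1 (level 3) -/

open NumberField Matrix UniqueFactorizationMonoid
open scoped Pointwise

set_option linter.unusedSectionVars false

noncomputable section

namespace Vale.Agent.P022

/-- the class of representations: unramified outside `{2, 3}`, residually trivial, with
`r|I₃ = 1 ⊕ ε`, `ε` of order two -/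
def C3 {E : Type} [NontriviallyNormedField E] (r : GQ →* GL (Fin 2) E) : Prop :=
  (∀ p : ℕ, p.Prime → p ≠ 2 → p ≠ 3 → UnrAt r p) ∧
  (∀ g : GQ, ‖(r g : Matrix (Fin 2) (Fin 2) E).trace‖ < 1 ∧
    ‖(r g : Matrix (Fin 2) (Fin 2) E).det - 1‖ < 1) ∧
  (∀ P : Ideal (𝓞 Qb), P.IsPrime → ((3 : ℕ) : 𝓞 Qb) ∈ P → ∀ g : GQ,
    (∀ x : 𝓞 Qb, g • x - x ∈ P) →
      r g = 1 ∨ (r g * r g = 1 ∧ (r g : Matrix (Fin 2) (Fin 2) E).det = -1)) ∧
  ¬ UnrAt r 3

namespace H20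

open H916

/-- the prime of `ℚ` below a prime above `ℓ` is `(ℓ)` -/
lemma below_eq {l : ℕ} (hl : l.Prime) {P : Ideal (𝓞 Qb)} (hP : P.IsPrime)
    (hlP : (l : 𝓞 Qb) ∈ P) :
    below (algebraMap ℚ Qb) P = Ideal.span {((l : ℕ) : 𝓞 ℚ)} := by
  have hbp := below_prime (algebraMap ℚ Qb) hP
  have hlb := l_mem_below (algebraMap ℚ Qb) hlP
  have hle : Ideal.span {((l : ℕ) : 𝓞 ℚ)} ≤ below (algebraMap ℚ Qb) P := by
    rw [Ideal.span_singleton_le_iff_mem]; exact hlb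
  have hn : Ideal.absNorm (Ideal.span {((l : ℕ) : 𝓞 ℚ)}) = l := by
    rw [Ideal.absNorm_span_natCast, RingOfIntegers.rank, Module.finrank_self, pow_one]
  have hirr : Irreducible (Ideal.span {((l : ℕ) : 𝓞 ℚ)}) := by
    refine Ideal.irreducible_of_irreducible_absNorm ?_
    rw [hn]
    exact hl
  have hmax : (Ideal.span {((l : ℕ) : 𝓞 ℚ)}).IsMaximal :=
    (Ideal.isPrime_of_prime (irreducible_iff_prime.mp hirr)).isMaximal hirr.ne_zero
  exact (hmax.eq_of_le hbp.ne_top hle).symm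

/-- Frobenius elements at `ℓ` are conjugate under `r` -/
lemma frob_conj {A : Type*} [Group A] (r : GQ →* A) {l : ℕ} (hl : l.Prime)
    (hu : ∀ P : Ideal (𝓞 Qb), P.IsPrime → (l : 𝓞 Qb) ∈ P → ∀ g : GQ,
      (∀ x : 𝓞 Qb, g • x - x ∈ P) → r g = 1) {g g' : GQ} (hg : IsFrob l g)
    (hg' : IsFrob l g') : ∃ c : GQ, r g' = r c * r g * (r c)⁻¹ := by
  obtain ⟨P, hP, hlP, h1⟩ := hg
  obtain ⟨Q, hQ, hlQ, h2⟩ := hg'
  obtain ⟨c, hc⟩ := exists_smul (algebraMap ℚ Qb) hP hQ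
    ((below_eq hl hP hlP).trans (below_eq hl hQ hlQ).symm)
  have hQc : Q = cP (c : GQ)⁻¹ P := by
    rw [hc]
    ext x
    rw [mem_cP, Ideal.mem_pointwise_smul_iff_inv_smul_mem]
  have hg3 : ∀ x : 𝓞 Qb, ((c : GQ) * g * (c : GQ)⁻¹) • x - x ^ l ∈ Q := by
    intro x
    have h3 := conj_frob (c := (c : GQ)⁻¹) h1 x
    rw [← hQc] at h3
    have h4 : ((c : GQ)⁻¹)⁻¹ * (g * (c : GQ)⁻¹) = (c : GQ) * g * (c : GQ)⁻¹ := by group
    rwa [h4] at h3
  have hst : ∀ x : 𝓞 Qb, g' • x ∈ Q → x ∈ Q := by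
    intro x hx
    have h3 : x ^ l ∈ Q := by
      have h4 := Q.sub_mem hx (h2 x)
      rwa [sub_sub_cancel] at h4
    exact hQ.mem_of_pow_mem l h3
  have hin : ∀ x : 𝓞 Qb, (g'⁻¹ * ((c : GQ) * g * (c : GQ)⁻¹)) • x - x ∈ Q := by
    intro x
    apply hst
    rw [smul_sub, ← mul_smul]
    have h3 : g' * (g'⁻¹ * ((c : GQ) * g * (c : GQ)⁻¹)) = (c : GQ) * g * (c : GQ)⁻¹ := by group
    rw [h3]
    have h4 := Q.sub_mem (hg3 x) (h2 x)
    rwa [sub_sub_sub_cancel_right] at h4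
  have h5 := hu Q hQ hlQ _ hin
  refine ⟨c, ?_⟩
  rw [map_mul, map_inv, inv_mul_eq_one, map_mul, map_mul, map_inv] at h5
  exact h5

lemma frob_trace {E : Type} [Field E] (r : GQ →* GL (Fin 2) E) {l : ℕ} (hl : l.Prime)
    (hu : UnrAt r l) {g g' : GQ} (hg : IsFrob l g) (hg' : IsFrob l g') :
    (r g' : Matrix (Fin 2) (Fin 2) E).trace = (r g : Matrix (Fin 2) (Fin 2) E).trace ∧
    (r g' : Matrix (Fin 2) (Fin 2) E).det = (r g : Matrix (Fin 2) (Fin 2) E).det := by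
  obtain ⟨c, hc⟩ := frob_conj r hl hu hg hg'
  rw [hc, Units.val_mul, Units.val_mul]
  have h1 : (((r c)⁻¹ : GL (Fin 2) E) : Matrix (Fin 2) (Fin 2) E) *
      (r c : Matrix (Fin 2) (Fin 2) E) = 1 := by
    rw [← Units.val_mul, inv_mul_cancel, Units.val_one]
  constructor
  · rw [Matrix.trace_mul_comm, ← mul_assoc, h1, one_mul]
  · rw [Matrix.det_mul, Matrix.det_mul, mul_right_comm, ← Matrix.det_mul, mul_comm]
    rw [show ((r c : Matrix (Fin 2) (Fin 2) E) * (((r c)⁻¹ : GL (Fin 2) E) :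
      Matrix (Fin 2) (Fin 2) E)) = 1 from by rw [← Units.val_mul, mul_inv_cancel, Units.val_one]]
    rw [Matrix.det_one, mul_one]

end H20

/-- **the last step of L3** -/
theorem H20.fin3 (E : Type) [NontriviallyNormedField E] [NormedAlgebra ℚ_[2] E]
    [FiniteDimensional ℚ_[2] E] (r : GQ →* GL (Fin 2) E) (h3 : C3 r)
    (key : ∀ φ : PA 3 → GQ, (∀ ℓ, IsFrob ℓ.1 (φ ℓ)) → ∀ ε : ℝ, 0 < ε → ∃ k : ℕ,
      ∀ x : FreeAlgebra ℤ (Gen 3), (∀ i < k, FreeAlgebra.lift ℤ (fun s => gHk 3 s i) x = 0) →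
        ‖FreeAlgebra.lift ℤ (Sum.elim
          (fun ℓ => (r (φ ℓ) : Matrix (Fin 2) (Fin 2) E).trace)
          (fun ℓ => (r (φ ℓ) : Matrix (Fin 2) (Fin 2) E).det)) x‖ < ε) : Q1Concl E r := by
  obtain ⟨hun, hres, -, hram⟩ := h3
  have hcE : CompleteSpace E := FiniteDimensional.complete ℚ_[2] E
  have huE : IsUltrametricDist E := IsUltrametricDist.of_normedAlgebra ℚ_[2]
  have hu : ∀ ℓ : PA 3, UnrAt r ℓ.1 := by
    intro ℓ
    apply hun ℓ.1 ℓ.2.1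
    · intro h
      exact ℓ.2.2 (by rw [h]; norm_num)
    · intro h
      exact ℓ.2.2 (by rw [h]; norm_num)
  choose φ hφ using fun ℓ : PA 3 => H20.exists_isFrob ℓ.2.1
  let L : FreeAlgebra ℤ (Gen 3) →ₐ[ℤ] E := FreeAlgebra.lift ℤ (Sum.elim
    (fun ℓ => (r (φ ℓ) : Matrix (Fin 2) (Fin 2) E).trace)
    (fun ℓ => (r (φ ℓ) : Matrix (Fin 2) (Fin 2) E).det))
  have hdet : ∀ g : GQ, ‖(r g : Matrix (Fin 2) (Fin 2) E).det‖ ≤ 1 := by
    intro g
    have h1 : (r g : Matrix (Fin 2) (Fin 2) E).det =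
      ((r g : Matrix (Fin 2) (Fin 2) E).det - 1) + 1 := by ring
    rw [h1]
    exact (IsUltrametricDist.norm_add_le_max _ _).trans
      (max_le (hres g).2.le (by rw [norm_one]))
  have hL : ∀ x, ‖L x‖ ≤ 1 := by
    intro x
    induction x using FreeAlgebra.induction with
    | grade0 n =>
      rw [AlgHom.commutes]
      rw [eq_intCast]
      have h1 : ((n : ℤ) : E) = algebraMap ℚ_[2] E (n : ℚ_[2]) := by simp
      rw [h1, norm_algebraMap']
      exact Padic.norm_int_le_one n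
    | grade1 s =>
      change ‖FreeAlgebra.lift ℤ _ (FreeAlgebra.ι ℤ s)‖ ≤ 1
      rw [FreeAlgebra.lift_ι_apply]
      rcases s with ℓ | ℓ
      · exact (hres (φ ℓ)).1.le
      · exact hdet (φ ℓ)
    | mul a b ha hb =>
      rw [map_mul, norm_mul]
      exact mul_le_one₀ ha (norm_nonneg _) hb
    | add a b ha hb =>
      rw [map_add]
      exact (IsUltrametricDist.norm_add_le_max _ _).trans (max_le ha hb)
  obtain ⟨c, hc⟩ := H587.LIM (Gen 3) (fun i => Module.End ℂ (MF 3 (i + 1))) (gHk 3) E L hL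
    (fun ε hε => key φ hφ ε hε)
  refine ⟨3, inferInstance, by decide, ?_, hu, c, ?_⟩
  · intro p hp hp3
    rw [(Nat.prime_dvd_prime_iff_eq hp Nat.prime_three).1 hp3]
    exact hram
  · intro ℓ g hg
    obtain ⟨h1, h2⟩ := H20.frob_trace r ℓ.2.1 (hu ℓ) (hφ ℓ) hg
    have h3 : c.val (Sum.inl ℓ) = (r (φ ℓ) : Matrix (Fin 2) (Fin 2) E).trace :=
      (hc (Sum.inl ℓ)).trans (FreeAlgebra.lift_ι_apply _ _)
    have h4 : c.val (Sum.inr ℓ) = (r (φ ℓ) : Matrix (Fin 2) (Fin 2) E).det :=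
      (hc (Sum.inr ℓ)).trans (FreeAlgebra.lift_ι_apply _ _)
    exact ⟨h3.trans h1.symm, h4.trans h2.symm⟩

end Vale.Agent.P022
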