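import Vale.Agent.P022.H20.L3.WdLow

/-! # P022-L3: the weight data for all even `i` (weight one carries the zero ring) -/

noncomputable section

namespace Vale.Agent.P022.H20.L3

open Vale.Agent.P022 Vale.Agent.P022.H346 Vale.Agent.P022.H132.Z Vale.Agent.P022.H239.L3

/-- a datum from one open subgroup, with the zero ring -/
def triv (i : ℕ) (h : ∃ U : Subgroup GQ, Good U) : WD i where
  T := PUnit
  tf _ _ := rfl
  sep _ _ := rfl
  t _ := PUnit.unit
  d := 1
  htf := ⟨rfl, fun _ _ => rfl, fun _ _ => rfl⟩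
  cont _ := h.imp fun _ hU => ⟨hU, fun _ _ _ => ⟨⟨0, rfl⟩, ⟨0, rfl⟩⟩⟩
  dc _ _ := rfl
  dt _ _ _ _ _ _ _ _ := rfl
  ds _ _ _ _ _ _ _ _ := rfl
  ev :=
    { toFun := fun _ => 0
      map_zero' := rfl
      map_one' := rfl
      map_add' := fun _ _ => rfl
      map_mul' := fun _ _ => rfl }
  evT _ _ _ := rfl
  evS _ _ _ := rfl
  kill _ _ := rfl

/-- all weights at once; the lower side is needed and true for `0 < i` only -/
theorem exists_W (h : ∀ i : ℕ, Even i → 0 < i → ∃ w : WD i, Low w) :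
    ∃ W : ∀ i : ℕ, Even i → WD i, ∀ (i : ℕ) (hi : Even i), 0 < i → Low (W i hi) := by
  classical
  have hU : ∃ U : Subgroup GQ, Good U := by
    obtain ⟨w, -⟩ := h 2 even_two two_pos
    obtain ⟨U, hU, -⟩ := w.cont 0
    exact ⟨U, hU⟩
  refine ⟨fun i hi => if h0 : 0 < i then (h i hi h0).choose else triv i hU, fun i hi h0 => ?_⟩
  have e : (if h0 : 0 < i then (h i hi h0).choose else triv i hU) = (h i hi h0).choose :=
    dif_pos h0
  change Low (if h0 : 0 < i then (h i hi h0).choose else triv i hU)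
  rw [e]
  exact (h i hi h0).choose_spec

/-- the same from the families of pseudocharacters -/
theorem exists_W_of_fam (h : ∀ i : ℕ, Even i → 0 < i → ∃ F : Fam i, F.Ker) :
    ∃ W : ∀ i : ℕ, Even i → WD i, ∀ (i : ℕ) (hi : Even i), 0 < i → Low (W i hi) :=
  exists_W fun i hi h0 => by
    obtain ⟨F, hk⟩ := h i hi h0
    exact exists_low F hk

end Vale.Agent.P022.H20.L3
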