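import Vale.Agent.P022.H565.StG

/-!
P022: the class of representations of level 3 (words of the statement).
-/

open NumberField Matrix

noncomputable section

namespace Vale.Agent.P022.St

variable {E : Type} [NontriviallyNormedField E]
  (r : (AlgebraicClosure ℚ ≃ₐ[ℚ] AlgebraicClosure ℚ) →* GL (Fin 2) E)

/-- `r` is residually trivial: `tr r(g) ≡ 0` and `det r(g) ≡ 1` modulo the maximal ideal, that is,
the semisimplification of the reduction of `r` is the trivial representation `1 ⊕ 1` -/
def ResTriv : Prop :=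
  ∀ g, ‖(r g : Matrix (Fin 2) (Fin 2) E).trace‖ < 1 ∧
    ‖(r g : Matrix (Fin 2) (Fin 2) E).det - 1‖ < 1

/-- `r` is ramified at `3` and its restriction to every inertia group above `3` is `1 ⊕ ε` with
`ε` of order two: the elements of inertia act trivially or by an involution of determinant `-1` -/
def PrincipalAt3 : Prop :=
  ¬ UnrAt r 3 ∧ ∀ P : Ideal (𝓞 (AlgebraicClosure ℚ)), P.IsPrime →
    ((3 : ℕ) : 𝓞 (AlgebraicClosure ℚ)) ∈ P →
      ∀ g : AlgebraicClosure ℚ ≃ₐ[ℚ] AlgebraicClosure ℚ,
        (∀ x : 𝓞 (AlgebraicClosure ℚ), g • x - x ∈ P) →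
          r g = 1 ∨ (r g * r g = 1 ∧ (r g : Matrix (Fin 2) (Fin 2) E).det = -1)

end Vale.Agent.P022.St
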