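import Vale.Agent.P022.H239.L3.Act2

/-! # P022-L3: the diamond operators of level 3 in odd weight -/

open UpperHalfPlane hiding I
open Matrix CongruenceSubgroup
open scoped MatrixGroups ModularForm

noncomputable section

namespace Vale.Agent.P022.H20.L3

open Vale.Agent.P022 Vale.Agent.P022.H239.L3

theorem jac3 {ℓ : ℕ} (h : ℓ % 3 = 1) : jacobiSym (ℓ : ℤ) 3 = 1 := by
  rw [jacobiSym.mod_left, show ((ℓ : ℤ) % ((3 : ℕ) : ℤ)) = 1 by omega]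
  exact jacobiSym.one_left 3

theorem jac3' {ℓ : ℕ} (h : ℓ % 3 = 2) : jacobiSym (ℓ : ℤ) 3 = -1 := by
  rw [jacobiSym.mod_left, show ((ℓ : ℤ) % ((3 : ℕ) : ℤ)) = 2 by omega]
  norm_num

theorem mod3 (ℓ : PA 3) : ℓ.1 % 3 = 1 ∨ ℓ.1 % 3 = 2 := by
  have h : ¬ 3 ∣ ℓ.1 := by
    intro h
    have h1 : 3 = ℓ.1 := (Nat.prime_dvd_prime_iff_eq Nat.prime_three ℓ.2.1).1 h
    apply ℓ.2.2
    rw [← h1]
    norm_num
  omega

theorem slash_neg (k : ℕ) (hk : Odd k) (f : ℍ → ℂ) :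
    f ∣[(k : ℤ)] (-1 : SL(2, ℤ)) = -f := by
  funext τ
  rw [ModularForm.SL_slash_apply]
  have h1 : ((-1 : SL(2, ℤ)) • τ) = τ := by
    simp
  rw [h1]
  have h2 : denom ((-1 : SL(2, ℤ)) : GL (Fin 2) ℝ) τ = -1 := by
    simp [denom]
  rw [h2]
  have h3 : ((-1 : ℂ)) ^ (-(k : ℤ)) = -1 := by
    rw [_root_.zpow_neg, zpow_natCast, hk.neg_one_pow]
    norm_num
  rw [h3]
  simp

theorem dia_odd (i : ℕ) (hi : Even i) (ℓ : PA 3) :
    H783.dia (i + 1) ℓ = ((jacobiSym (ℓ.1 : ℤ) 3 : ℤ) : ℂ) • (1 : Module.End ℂ (MF 3 (i + 1))) := by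
  refine LinearMap.ext fun f => ?_
  apply DFunLike.coe_injective
  rw [H783.dia_coe]
  rcases mod3 ℓ with h | h
  · rw [jac3 h]
    have h1 := H783.dFun_eq (k := i + 1) ℓ (s := 1) (Subgroup.one_mem _) (by
      have h2 : ((ℓ.1 : ℕ) : ZMod 3) = ((1 : ℕ) : ZMod 3) := by
        rw [ZMod.natCast_eq_natCast_iff']
        omega
      rw [h2]
      simp) f
    rw [h1, SlashAction.slash_one]
    simp
  · rw [jac3' h]
    have h1 := H783.dFun_eq (k := i + 1) ℓ (s := -1) (by rw [Gamma0_mem]; simp) (by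
      have h2 : ((ℓ.1 : ℕ) : ZMod 3) = ((2 : ℕ) : ZMod 3) := by
        rw [ZMod.natCast_eq_natCast_iff']
        omega
      rw [h2]
      simp
      decide) f
    rw [h1, slash_neg (i + 1) hi.add_one]
    simp

theorem TR_tf (i : ℕ) (a : TR i) (h : 2 * a = 0) : a = 0 := by
  apply Subtype.ext
  have h1 : (2 : ℂ) • (a : Module.End ℂ (MF 3 (i + 1))) = 0 := by
    have h2 := congrArg Subtype.val h
    have h3 : ((2 * a : TR i) : Module.End ℂ (MF 3 (i + 1))) = (a : Module.End ℂ (MF 3 (i + 1))) +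
        (a : Module.End ℂ (MF 3 (i + 1))) := by
      rw [two_mul]; rfl
    rw [two_smul, ← h3]
    exact h2
  exact (smul_eq_zero.1 h1).resolve_left two_ne_zero

theorem wT_S (i : ℕ) (hi : Even i) (ℓ : PA 3) :
    wT i (FreeAlgebra.ι ℤ (Sum.inr ℓ)) = ((jacobiSym (ℓ.1 : ℤ) 3 * (ℓ.1 : ℤ) ^ i : ℤ) : TR i) := by
  apply Subtype.ext
  change FreeAlgebra.lift ℤ (fun s => gHk 3 s i) (FreeAlgebra.ι ℤ (Sum.inr ℓ)) = _
  rw [FreeAlgebra.lift_ι_apply]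
  change ((ℓ.1 : ℂ) ^ i) • H783.dia (i + 1) ℓ = _
  rw [dia_odd i hi, smul_smul]
  have h1 : (((jacobiSym (ℓ.1 : ℤ) 3 * (ℓ.1 : ℤ) ^ i : ℤ) : TR i) :
      Module.End ℂ (MF 3 (i + 1))) =
      ((jacobiSym (ℓ.1 : ℤ) 3 * (ℓ.1 : ℤ) ^ i : ℤ) : Module.End ℂ (MF 3 (i + 1))) := rfl
  rw [h1, ← zsmul_one (jacobiSym (ℓ.1 : ℤ) 3 * (ℓ.1 : ℤ) ^ i), ← Int.cast_smul_eq_zsmul ℂ]
  congr 1
  push_cast
  ring

end Vale.Agent.P022.H20.L3
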