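import Vale.Agent.P022.H20.L3.Def3
import Vale.Agent.P022.H20.L3.Fin3
import Vale.Agent.P022.H933.St.Bridge

/-! # P022-L3: the last step in the words of the statement -/

open NumberField Matrix

noncomputable section

namespace Vale.Agent.P022.H20

theorem fin3St (E : Type) [NontriviallyNormedField E] [NormedAlgebra ℚ_[2] E]
    [FiniteDimensional ℚ_[2] E] (r : GQ →* GL (Fin 2) E)
    (hu : ∀ p : ℕ, p.Prime → p ≠ 2 → p ≠ 3 → St.UnrAt r p) (hr : St.ResTriv r)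
    (h3 : St.PrincipalAt3 r)
    (key : ∀ φ : PA 3 → GQ, (∀ ℓ, IsFrob ℓ.1 (φ ℓ)) → ∀ ε : ℝ, 0 < ε → ∃ k : ℕ,
      ∀ x : FreeAlgebra ℤ (Gen 3), (∀ i < k, FreeAlgebra.lift ℤ (fun s => gHk 3 s i) x = 0) →
        ‖FreeAlgebra.lift ℤ (Sum.elim
          (fun ℓ => (r (φ ℓ) : Matrix (Fin 2) (Fin 2) E).trace)
          (fun ℓ => (r (φ ℓ) : Matrix (Fin 2) (Fin 2) E).det)) x‖ < ε) : St.Q1Concl r :=
  St.q1Concl r (fin3 E r ⟨hu, hr, h3.2, h3.1⟩ key)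

end Vale.Agent.P022.H20
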