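import Mathlib

/-!
P022-L3, row [WD-LIM]: limits of Hecke polynomials. `T₀` is a torsion free commutative ring,
`ev : H → T₀` a ring homomorphism, `α n : H → A n` ring homomorphisms such that `α n Q = 0`
implies `e • ev Q ∈ 2 ^ n T₀` with one integer `e ≠ 0`. Then the closure of the image of `H` in
`∏ A n` maps to the completion of `T₀`.
-/

noncomputable section

namespace Vale.Agent.P022.H20.L3

/-- the 2-adic completion of a ring, as compatible sequences -/
def Cmp (T : Type*) [CommRing T] : Subring (∀ n : ℕ, T ⧸ Ideal.span {(2 : T) ^ n}) where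
  carrier := {x | ∀ n, ∃ y : T, x n = Ideal.Quotient.mk _ y ∧ x (n + 1) = Ideal.Quotient.mk _ y}
  zero_mem' n := ⟨0, by simp, by simp⟩
  one_mem' n := ⟨1, by simp, by simp⟩
  add_mem' {a b} ha hb n := by
    obtain ⟨y, h1, h2⟩ := ha n
    obtain ⟨z, h3, h4⟩ := hb n
    exact ⟨y + z, by simp [h1, h3], by simp [h2, h4]⟩
  mul_mem' {a b} ha hb n := by
    obtain ⟨y, h1, h2⟩ := ha n
    obtain ⟨z, h3, h4⟩ := hb n
    exact ⟨y * z, by simp [h1, h3], by simp [h2, h4]⟩
  neg_mem' {a} ha n := by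
    obtain ⟨y, h1, h2⟩ := ha n
    exact ⟨-y, by simp [h1], by simp [h2]⟩

section

variable {T : Type*} [CommRing T]

/-- the map to the completion -/
def toCmp : T →+* Cmp T where
  toFun y := ⟨fun n => Ideal.Quotient.mk _ y, fun n => ⟨y, rfl, rfl⟩⟩
  map_zero' := by ext n; simp
  map_one' := by ext n; simp
  map_add' a b := by ext n; simp
  map_mul' a b := by ext n; simp

theorem toCmp_apply (y : T) (n : ℕ) : (toCmp y).1 n = Ideal.Quotient.mk _ y := rfl

theorem mk_zero_iff {n : ℕ} {y : T} :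
    Ideal.Quotient.mk (Ideal.span {(2 : T) ^ n}) y = 0 ↔ (2 : T) ^ n ∣ y := by
  rw [Ideal.Quotient.eq_zero_iff_mem, Ideal.mem_span_singleton]

theorem mk_eq_iff {n : ℕ} {y z : T} :
    Ideal.Quotient.mk (Ideal.span {(2 : T) ^ n}) y = Ideal.Quotient.mk _ z ↔
      (2 : T) ^ n ∣ y - z := by
  rw [← sub_eq_zero, ← map_sub, mk_zero_iff]

/-- a representative of the component of index `n + m` also represents the component `n` -/
theorem cmp_rep (x : Cmp T) (n m : ℕ) (y : T) (h : x.1 (n + m) = Ideal.Quotient.mk _ y) :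
    x.1 n = Ideal.Quotient.mk _ y := by
  induction m generalizing y with
  | zero => exact h
  | succ m ih =>
    obtain ⟨z, h1, h2⟩ := x.2 (n + m)
    have h3 : x.1 (n + m) = Ideal.Quotient.mk _ y := by
      rw [h1, mk_eq_iff]
      have h4 : (2 : T) ^ (n + m + 1) ∣ z - y := by
        rw [← mk_eq_iff]
        exact h2.symm.trans h
      exact (pow_dvd_pow _ (Nat.le_succ _)).trans h4
    exact ih y h3

theorem cmp_tf (htf : ∀ a : T, 2 * a = 0 → a = 0) (x : Cmp T) (h : 2 * x = 0) : x = 0 := by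
  apply Subtype.ext
  funext n
  obtain ⟨y, hy⟩ := Ideal.Quotient.mk_surjective (x.1 (n + 1))
  have h1 : x.1 n = Ideal.Quotient.mk _ y := cmp_rep x n 1 y hy.symm
  have h2 : (2 : T) ^ (n + 1) ∣ 2 * y := by
    rw [← mk_zero_iff, map_mul, hy]
    have h3 : toCmp (2 : T) * x = 0 := by rw [map_ofNat]; exact h
    exact congrFun (congrArg Subtype.val h3) (n + 1)
  obtain ⟨z, hz⟩ := h2
  have h4 : y = 2 ^ n * z := by
    have h5 : 2 * (y - 2 ^ n * z) = 0 := by rw [mul_sub, hz]; ring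
    exact sub_eq_zero.1 (htf _ h5)
  change x.1 n = 0
  rw [h1, mk_zero_iff, h4]
  exact dvd_mul_right _ _

theorem cmp_sep (x : Cmp T) (h : ∀ n : ℕ, (2 : Cmp T) ^ n ∣ x) : x = 0 := by
  apply Subtype.ext
  funext n
  obtain ⟨y, hy⟩ := h n
  change x.1 n = 0
  rw [hy]
  change ((2 : Cmp T) ^ n).1 n * y.1 n = 0
  have h1 : ((2 : Cmp T) ^ n).1 n = Ideal.Quotient.mk _ ((2 : T) ^ n) := by
    have h2 : (2 : Cmp T) ^ n = toCmp ((2 : T) ^ n) := by rw [map_pow, map_ofNat]
    rw [h2]; rfl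
  rw [h1, mk_zero_iff.2 dvd_rfl, zero_mul]

theorem cmp_dvd (htf : ∀ a : T, 2 * a = 0 → a = 0) (x : Cmp T) (n : ℕ) (h : x.1 n = 0) :
    (2 : Cmp T) ^ n ∣ x := by
  have htf' : ∀ (m : ℕ) (a : T), 2 ^ m * a = 0 → a = 0 := by
    intro m
    induction m with
    | zero => intro a ha; simpa using ha
    | succ m ih =>
      intro a ha
      apply ih
      apply htf
      rw [← ha]; ring
  choose y hy using fun m => Ideal.Quotient.mk_surjective (x.1 (n + m))
  have h1 : ∀ m, (2 : T) ^ n ∣ y m := by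
    intro m
    rw [← mk_zero_iff, ← cmp_rep x n m (y m) (hy m).symm, h]
  choose z hz using h1
  have h2 : ∀ m, (2 : T) ^ m ∣ z (m + 1) - z m := by
    intro m
    have h3 : x.1 (n + m) = Ideal.Quotient.mk _ (y (m + 1)) :=
      cmp_rep x (n + m) 1 (y (m + 1)) (hy (m + 1)).symm
    have h4 : (2 : T) ^ (n + m) ∣ y (m + 1) - y m := by
      rw [← mk_eq_iff, ← h3, hy m]
    rw [hz (m + 1), hz m, ← mul_sub] at h4
    obtain ⟨w, hw⟩ := h4
    refine ⟨w, ?_⟩
    have h5 : 2 ^ n * (z (m + 1) - z m - 2 ^ m * w) = 0 := by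
      rw [mul_sub, hw]; ring
    exact sub_eq_zero.1 (htf' n _ h5)
  refine ⟨⟨fun m => Ideal.Quotient.mk _ (z m), fun m => ⟨z (m + 1), ?_, rfl⟩⟩, ?_⟩
  · rw [mk_eq_iff]
    obtain ⟨w, hw⟩ := h2 m
    exact ⟨-w, by rw [mul_neg, ← hw]; ring⟩
  · apply Subtype.ext
    funext m
    change x.1 m = ((2 : Cmp T) ^ n).1 m * Ideal.Quotient.mk _ (z m)
    have h3 : ((2 : Cmp T) ^ n).1 m = Ideal.Quotient.mk _ ((2 : T) ^ n) := by
      have h4 : (2 : Cmp T) ^ n = toCmp ((2 : T) ^ n) := by rw [map_pow, map_ofNat]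
      rw [h4]; rfl
    have h5 : x.1 (m + n) = Ideal.Quotient.mk _ (y m) := by
      have h6 := hy m
      rw [add_comm n m] at h6
      exact h6.symm
    rw [h3, ← map_mul, ← hz m]
    exact cmp_rep x m n (y m) h5

end

section

variable {H : Type*} [Ring H] {T : Type*} [CommRing T] (ev : H →+* T) {A : ℕ → Type*}
  [∀ n, Ring (A n)] (α : ∀ n, H →+* A n)

/-- the closure of the image of `H` in the product of the `A n` -/
def Clo : Subring (∀ n, A n) where
  carrier := {f | ∀ m, ∃ Q : H, ∀ n ≤ m, α n Q = f n}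
  zero_mem' m := ⟨0, fun n _ => by simp⟩
  one_mem' m := ⟨1, fun n _ => by simp⟩
  add_mem' {a b} ha hb m := by
    obtain ⟨Q, h1⟩ := ha m
    obtain ⟨R, h2⟩ := hb m
    exact ⟨Q + R, fun n hn => by simp [h1 n hn, h2 n hn]⟩
  mul_mem' {a b} ha hb m := by
    obtain ⟨Q, h1⟩ := ha m
    obtain ⟨R, h2⟩ := hb m
    exact ⟨Q * R, fun n hn => by simp [h1 n hn, h2 n hn]⟩
  neg_mem' {a} ha m := by
    obtain ⟨Q, h1⟩ := ha m
    exact ⟨-Q, fun n hn => by simp [h1 n hn]⟩

/-- the constant polynomials -/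
def toClo : H →+* Clo α where
  toFun Q := ⟨fun n => α n Q, fun m => ⟨Q, fun n _ => rfl⟩⟩
  map_zero' := by ext n; simp
  map_one' := by ext n; simp
  map_add' a b := by ext n; simp
  map_mul' a b := by ext n; simp

theorem sat (htf : ∀ a : T, 2 * a = 0 → a = 0)
    (ker : ∃ e : ℤ, e ≠ 0 ∧ ∀ (n : ℕ) (Q : H), α n Q = 0 → ∃ y : T, (e : T) * ev Q = 2 ^ n * y) :
    ∃ c : ℕ, ∀ (n : ℕ) (Q : H), α (n + c) Q = 0 → (2 : T) ^ n ∣ ev Q := by
  obtain ⟨e, he, hk⟩ := ker
  have htf' : ∀ (m : ℕ) (a : T), 2 ^ m * a = 0 → a = 0 := by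
    intro m
    induction m with
    | zero => intro a ha; simpa using ha
    | succ m ih =>
      intro a ha
      apply ih
      apply htf
      rw [← ha]; ring
  obtain ⟨c, o, ho, hco⟩ : ∃ (c : ℕ) (o : ℤ), ¬ (2 : ℤ) ∣ o ∧ e = 2 ^ c * o := by
    have hfin : FiniteMultiplicity (2 : ℤ) e :=
      Int.finiteMultiplicity_iff.2 ⟨by norm_num, he⟩
    obtain ⟨o, h1, h2⟩ := hfin.exists_eq_pow_mul_and_not_dvd
    exact ⟨_, o, h2, h1⟩
  refine ⟨c, fun n Q hQ => ?_⟩
  obtain ⟨y, hy⟩ := hk (n + c) Q hQ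
  have h1 : (o : T) * ev Q = 2 ^ n * y := by
    have h2 : 2 ^ c * ((o : T) * ev Q - 2 ^ n * y) = 0 := by
      have h3 : (2 : T) ^ c * (o * ev Q) = (e : T) * ev Q := by
        rw [hco]; push_cast; ring
      rw [mul_sub, h3, hy]; ring
    exact sub_eq_zero.1 (htf' c _ h2)
  have hcop : IsCoprime (o : ℤ) (2 ^ n) := by
    apply IsCoprime.pow_right
    rw [isCoprime_comm]
    exact (Int.prime_two.coprime_iff_not_dvd).2 ho
  obtain ⟨a, b, hab⟩ := hcop
  have h4 : ev Q = 2 ^ n * (a * y + b * ev Q) := by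
    have h5 : ((a * o + b * 2 ^ n : ℤ) : T) = 1 := by rw [hab]; simp
    push_cast at h5
    calc ev Q = ((a : T) * o + b * 2 ^ n) * ev Q := by rw [h5, one_mul]
      _ = a * ((o : T) * ev Q) + b * 2 ^ n * ev Q := by ring
      _ = 2 ^ n * (a * y + b * ev Q) := by rw [h1]; ring
  exact ⟨_, h4⟩

/-- the limit map: from the closure of the polynomials to the completion -/
theorem exists_lim (htf : ∀ a : T, 2 * a = 0 → a = 0)
    (ker : ∃ e : ℤ, e ≠ 0 ∧ ∀ (n : ℕ) (Q : H), α n Q = 0 → ∃ y : T, (e : T) * ev Q = 2 ^ n * y) :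
    ∃ (c : ℕ) (L : Clo α →+* Cmp T), (∀ Q : H, L (toClo α Q) = toCmp (ev Q)) ∧
      ∀ (n : ℕ) (f : Clo α), f.1 (n + c) = 0 → (L f).1 n = 0 := by
  obtain ⟨c, hc⟩ := sat ev α htf ker
  choose Q hQ using fun (f : Clo α) (m : ℕ) => f.2 m
  have key : ∀ (f : Clo α) (n : ℕ) (R : H), α (n + c) R = f.1 (n + c) →
      Ideal.Quotient.mk (Ideal.span {(2 : T) ^ n}) (ev (Q f (n + c))) =
        Ideal.Quotient.mk _ (ev R) := by
    intro f n R hR
    rw [mk_eq_iff, ← map_sub]
    apply hc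
    rw [map_sub, hQ f (n + c) (n + c) le_rfl, hR, sub_self]
  let L : Clo α →+* Cmp T :=
    { toFun := fun f => ⟨fun n => Ideal.Quotient.mk _ (ev (Q f (n + c))), fun n =>
        ⟨ev (Q f (n + 1 + c)), key f n _ (hQ f (n + 1 + c) (n + c) (by omega)), rfl⟩⟩
      map_zero' := by
        apply Subtype.ext
        funext n
        change Ideal.Quotient.mk _ (ev (Q 0 (n + c))) = 0
        rw [key 0 n 0 (by simp), map_zero, map_zero]
      map_one' := by
        apply Subtype.ext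
        funext n
        change Ideal.Quotient.mk _ (ev (Q 1 (n + c))) = 1
        rw [key 1 n 1 (by simp), map_one, map_one]
      map_add' := fun f g => by
        apply Subtype.ext
        funext n
        change Ideal.Quotient.mk _ (ev (Q (f + g) (n + c))) =
          Ideal.Quotient.mk _ (ev (Q f (n + c))) + Ideal.Quotient.mk _ (ev (Q g (n + c)))
        rw [key (f + g) n (Q f (n + c) + Q g (n + c)) (by
          rw [map_add, hQ f (n + c) (n + c) le_rfl, hQ g (n + c) (n + c) le_rfl]; rfl),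
          map_add, map_add]
      map_mul' := fun f g => by
        apply Subtype.ext
        funext n
        change Ideal.Quotient.mk _ (ev (Q (f * g) (n + c))) =
          Ideal.Quotient.mk _ (ev (Q f (n + c))) * Ideal.Quotient.mk _ (ev (Q g (n + c)))
        rw [key (f * g) n (Q f (n + c) * Q g (n + c)) (by
          rw [map_mul, hQ f (n + c) (n + c) le_rfl, hQ g (n + c) (n + c) le_rfl]; rfl),
          map_mul, map_mul] }
  refine ⟨c, L, fun R => ?_, fun n f hf => ?_⟩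
  · apply Subtype.ext
    funext n
    change Ideal.Quotient.mk _ (ev (Q (toClo α R) (n + c))) = Ideal.Quotient.mk _ (ev R)
    exact key (toClo α R) n R rfl
  · change Ideal.Quotient.mk _ (ev (Q f (n + c))) = 0
    rw [key f n 0 (by rw [map_zero, hf]), map_zero, map_zero]

end

end Vale.Agent.P022.H20.L3
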