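import Vale.Agent.P022.H132.L3.Defs
import Vale.Agent.P022.H20.L3.Lim2
import Vale.Agent.P022.H20.L3.Dia3

/-!
P022-L3, row [WD-LIM]: from a compatible family of pseudocharacters modulo `2 ^ n` to the weight
`i + 1` datum `WD i` of row [Z]. Its ring is the 2-adic completion of the Hecke ring of
`M_(i+1)(Γ₁(3))`.
-/

open scoped NumberField
open Matrix

noncomputable section

namespace Vale.Agent.P022.H20.L3

open Vale.Agent.P022 Vale.Agent.P022.H346 Vale.Agent.P022.H132.Z Vale.Agent.P022.H239.L3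

/-- a family of two-dimensional trace functions of `G_ℚ` in rings `A n` with an action of the
Hecke polynomials; ONE polynomial gives `t n g` for all `n ≤ m` -/
structure Fam (i : ℕ) where
  A : ℕ → Type
  [rA : ∀ n, Ring (A n)]
  α : ∀ n, FreeAlgebra ℤ (Gen 3) →+* A n
  t : ∀ n, GQ → A n
  d : ∀ n, GQ → A n
  app : ∀ (m : ℕ) (g : GQ), ∃ Q R : FreeAlgebra ℤ (Gen 3), ∀ n ≤ m, α n Q = t n g ∧ α n R = d n g
  t1 : ∀ n, t n 1 = 2
  tc : ∀ n g h, t n (g * h) = t n (h * g)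
  tm : ∀ n g h, t n g * t n h = t n (g * h) + d n h * t n (g * h⁻¹)
  d1 : ∀ n, d n 1 = 1
  dm : ∀ n g h, d n (g * h) = d n g * d n h
  cont : ∀ n, ∃ U : Subgroup GQ, Good U ∧ ∀ g : GQ, ∀ u ∈ U,
    t n (g * u) = t n g ∧ d n (g * u) = d n g
  frT : ∀ n (ℓ : PA 3) (φ : GQ), IsFrob ℓ.1 φ → t n φ = α n (FreeAlgebra.ι ℤ (Sum.inl ℓ))
  frS : ∀ n (ℓ : PA 3) (φ : GQ), IsFrob ℓ.1 φ → d n φ = α n (FreeAlgebra.ι ℤ (Sum.inr ℓ))
  dc : ∀ n (c : GQ), IsConj c → d n c = -1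
  dt : ∀ n, ∀ P : Ideal (𝓞 Qb), P.IsPrime → ((3 : ℕ) : 𝓞 Qb) ∈ P → ∀ g : GQ,
    (∀ x : 𝓞 Qb, g • x - x ∈ P) → ∀ s : Qb, s ^ 2 = -3 → g s = -s → d n g = -1
  ds : ∀ n, ∀ P : Ideal (𝓞 Qb), P.IsPrime → ((3 : ℕ) : 𝓞 Qb) ∈ P → ∀ g : GQ,
    (∀ x : 𝓞 Qb, g • x - x ^ 3 ∈ P) → ∀ s : Qb, s ^ 2 = -3 → g s = s → d n g = 3 ^ i

attribute [instance] Fam.rA

/-- the kernel condition (chapter C) -/
def Fam.Ker {i : ℕ} (F : Fam i) : Prop :=
  ∃ e : ℤ, e ≠ 0 ∧ ∀ (n : ℕ) (Q : FreeAlgebra ℤ (Gen 3)), F.α n Q = 0 →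
    ∃ y : TR i, (e : TR i) * wT i Q = 2 ^ n * y

/-- a shift of the index does not matter -/
theorem Fam.ker_of {i : ℕ} (F : Fam i) (s : ℕ) (h : ∃ e : ℤ, e ≠ 0 ∧
    ∀ (n : ℕ) (Q : FreeAlgebra ℤ (Gen 3)), F.α (n + s) Q = 0 →
      ∃ y : TR i, (e : TR i) * wT i Q = 2 ^ n * y) : F.Ker := by
  obtain ⟨e, he, h⟩ := h
  refine ⟨2 ^ s * e, mul_ne_zero (pow_ne_zero _ two_ne_zero) he, fun n Q hQ => ?_⟩
  rcases le_or_gt s n with hn | hn
  · obtain ⟨m, rfl⟩ := Nat.exists_eq_add_of_le' hn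
    obtain ⟨y, hy⟩ := h m Q hQ
    refine ⟨y, ?_⟩
    push_cast
    rw [mul_assoc, hy, pow_add]
    ring
  · obtain ⟨m, rfl⟩ := Nat.exists_eq_add_of_le hn.le
    refine ⟨2 ^ m * ((e : TR i) * wT i Q), ?_⟩
    push_cast
    rw [pow_add]
    ring

/-- the trace functions with values in the closure of the Hecke polynomials -/
def Fam.tt {i : ℕ} (F : Fam i) (g : GQ) : Clo F.α :=
  ⟨fun n => F.t n g, fun m => by
    obtain ⟨Q, R, h⟩ := F.app m g
    exact ⟨Q, fun n hn => (h n hn).1⟩⟩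

/-- the determinants -/
def Fam.dd {i : ℕ} (F : Fam i) : GQ →* Clo F.α where
  toFun g := ⟨fun n => F.d n g, fun m => by
    obtain ⟨Q, R, h⟩ := F.app m g
    exact ⟨R, fun n hn => (h n hn).2⟩⟩
  map_one' := by
    apply Subtype.ext
    funext n
    exact F.d1 n
  map_mul' g h := by
    apply Subtype.ext
    funext n
    exact F.dm n g h

/-- the datum from the limit map -/
def mkWD {i : ℕ} (F : Fam i) (R : Type) [CommRing R] (tf : ∀ a : R, 2 * a = 0 → a = 0)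
    (sep : ∀ a : R, (∀ n : ℕ, (2 : R) ^ n ∣ a) → a = 0) (L : Clo F.α →+* R)
    (hdv : ∀ n : ℕ, ∃ c : ℕ, ∀ f g : Clo F.α, f.1 c = g.1 c → (2 : R) ^ n ∣ L f - L g)
    (ev : FreeAlgebra ℤ (Gen 3) →+* R) (hL : ∀ Q, L (toClo F.α Q) = ev Q)
    (kill : ∀ X : FreeAlgebra ℤ (Gen 3), FreeAlgebra.lift ℤ (fun s => gHk 3 s i) X = 0 →
      ev X = 0) : WD i where
  T := R
  tf := tf
  sep := sep
  t := fun g => L (F.tt g)
  d := ((L : Clo F.α →* R).comp F.dd).toHomUnits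
  htf :=
    { one := by
        have h : F.tt 1 = 2 := by
          apply Subtype.ext
          funext n
          exact F.t1 n
        rw [h, map_ofNat]
      comm := fun g h => by
        have e : F.tt (g * h) = F.tt (h * g) := by
          apply Subtype.ext
          funext n
          exact F.tc n g h
        rw [e]
      mul := fun g h => by
        have e : F.tt g * F.tt h = F.tt (g * h) + F.dd h * F.tt (g * h⁻¹) := by
          apply Subtype.ext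
          funext n
          exact F.tm n g h
        change L (F.tt g) * L (F.tt h) = L (F.tt (g * h)) + L (F.dd h) * L (F.tt (g * h⁻¹))
        rw [← map_mul, e, map_add, map_mul] }
  cont := fun n => by
    obtain ⟨c, hc⟩ := hdv n
    obtain ⟨U, hU, h⟩ := F.cont c
    exact ⟨U, hU, fun g u hu => ⟨hc (F.tt (g * u)) (F.tt g) (h g u hu).1,
      hc (F.dd (g * u)) (F.dd g) (h g u hu).2⟩⟩
  dc := fun g hg => by
    have e : F.dd g = -1 := by
      apply Subtype.ext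
      funext n
      exact F.dc n g hg
    change L (F.dd g) = -1
    rw [e, map_neg, map_one]
  dt := fun P hP h3 g hg s hs hgs => by
    have e : F.dd g = -1 := by
      apply Subtype.ext
      funext n
      exact F.dt n P hP h3 g hg s hs hgs
    change L (F.dd g) = -1
    rw [e, map_neg, map_one]
  ds := fun P hP h3 g hg s hs hgs => by
    have e : F.dd g = 3 ^ i := by
      apply Subtype.ext
      funext n
      exact F.ds n P hP h3 g hg s hs hgs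
    change L (F.dd g) = 3 ^ i
    rw [e, map_pow, map_ofNat]
  ev := ev
  evT := fun ℓ φ hφ => by
    have e : F.tt φ = toClo F.α (FreeAlgebra.ι ℤ (Sum.inl ℓ)) := by
      apply Subtype.ext
      funext n
      exact F.frT n ℓ φ hφ
    change ev (FreeAlgebra.ι ℤ (Sum.inl ℓ)) = L (F.tt φ)
    rw [e, hL]
  evS := fun ℓ φ hφ => by
    have e : F.dd φ = toClo F.α (FreeAlgebra.ι ℤ (Sum.inr ℓ)) := by
      apply Subtype.ext
      funext n
      exact F.frS n ℓ φ hφ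
    change ev (FreeAlgebra.ι ℤ (Sum.inr ℓ)) = L (F.dd φ)
    rw [e, hL]
  kill := kill

theorem two_apply {T : Type*} [CommRing T] (n : ℕ) :
    (2 : Cmp T).1 n = Ideal.Quotient.mk _ (2 : T) := by
  have h4 : (2 : Cmp T) = toCmp (2 : T) := by rw [map_ofNat]
  rw [h4, toCmp_apply]

theorem two_dvd_toCmp {T : Type*} [CommRing T] {a : T} (h : (2 : Cmp T) ∣ toCmp a) :
    (2 : T) ∣ a := by
  obtain ⟨y, hy⟩ := h
  have h2 := congrFun (congrArg Subtype.val hy) 1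
  change Ideal.Quotient.mk _ a = (2 : Cmp T).1 1 * y.1 1 at h2
  have h3 : (2 : Cmp T).1 1 = 0 := by
    rw [two_apply]
    exact mk_zero_iff.2 (by rw [pow_one])
  rw [h3, zero_mul, mk_zero_iff, pow_one] at h2
  exact h2

theorem dense_toCmp {T : Type*} [CommRing T] (htf : ∀ a : T, 2 * a = 0 → a = 0) (a : Cmp T) :
    ∃ y : T, (2 : Cmp T) ∣ a - toCmp y := by
  obtain ⟨y, hy⟩ := Ideal.Quotient.mk_surjective (a.1 1)
  refine ⟨y, ?_⟩
  rw [← pow_one (2 : Cmp T)]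
  apply cmp_dvd htf
  change a.1 1 - (toCmp y).1 1 = 0
  rw [toCmp_apply, hy, sub_self]

/-- the datum from the limit map, with density and divisibility -/
theorem exists_wd_gen {i : ℕ} (F : Fam i) (R : Type) [CommRing R]
    (tf : ∀ a : R, 2 * a = 0 → a = 0)
    (sep : ∀ a : R, (∀ n : ℕ, (2 : R) ^ n ∣ a) → a = 0) (L : Clo F.α →+* R)
    (hdv : ∀ n : ℕ, ∃ c : ℕ, ∀ f g : Clo F.α, f.1 c = g.1 c → (2 : R) ^ n ∣ L f - L g)
    (ev : FreeAlgebra ℤ (Gen 3) →+* R) (hL : ∀ Q, L (toClo F.α Q) = ev Q)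
    (kill : ∀ X : FreeAlgebra ℤ (Gen 3), FreeAlgebra.lift ℤ (fun s => gHk 3 s i) X = 0 →
      ev X = 0) (hd : ∀ a : R, ∃ X, (2 : R) ∣ a - ev X) (P : FreeAlgebra ℤ (Gen 3) → Prop)
    (hl : ∀ X, (2 : R) ∣ ev X → P X) :
    ∃ w : WD i, (∀ a : w.T, ∃ X, (2 : w.T) ∣ a - w.ev X) ∧ (∀ X, (2 : w.T) ∣ w.ev X → P X) :=
  ⟨mkWD F R tf sep L hdv ev hL kill, hd, hl⟩

/-- [WD-LIM], abstract Hecke ring -/
theorem exists_wd_abs {i : ℕ} (F : Fam i) (T0 : Type) [CommRing T0]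
    (tf : ∀ a : T0, 2 * a = 0 → a = 0) (ev : FreeAlgebra ℤ (Gen 3) →+* T0)
    (hs : Function.Surjective ev)
    (ker : ∃ e : ℤ, e ≠ 0 ∧ ∀ (n : ℕ) (Q : FreeAlgebra ℤ (Gen 3)), F.α n Q = 0 →
      ∃ y : T0, (e : T0) * ev Q = 2 ^ n * y)
    (kill : ∀ X : FreeAlgebra ℤ (Gen 3), FreeAlgebra.lift ℤ (fun s => gHk 3 s i) X = 0 →
      ev X = 0) :
    ∃ w : WD i, (∀ a : w.T, ∃ X, (2 : w.T) ∣ a - w.ev X) ∧
      (∀ X, (2 : w.T) ∣ w.ev X → (2 : T0) ∣ ev X) := by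
  obtain ⟨c, L, hL, hL0⟩ := exists_lim ev F.α tf ker
  have hdv : ∀ n : ℕ, ∃ c : ℕ, ∀ f g : Clo F.α, f.1 c = g.1 c →
      (2 : Cmp T0) ^ n ∣ L f - L g := fun n => ⟨n + c, fun f g h => by
    apply cmp_dvd tf
    rw [← map_sub]
    apply hL0
    change f.1 (n + c) - g.1 (n + c) = 0
    rw [h, sub_self]⟩
  have hkill : ∀ X : FreeAlgebra ℤ (Gen 3), FreeAlgebra.lift ℤ (fun s => gHk 3 s i) X = 0 →
      (toCmp.comp ev) X = 0 := fun X hX => by
    change toCmp (ev X) = 0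
    rw [kill X hX, map_zero]
  have hd : ∀ a : Cmp T0, ∃ X, (2 : Cmp T0) ∣ a - (toCmp.comp ev) X := fun a => by
    obtain ⟨y, hy⟩ := dense_toCmp tf a
    obtain ⟨X, rfl⟩ := hs y
    exact ⟨X, hy⟩
  exact exists_wd_gen F (Cmp T0) (cmp_tf tf) cmp_sep L hdv (toCmp.comp ev) hL hkill hd
    (fun X => (2 : T0) ∣ ev X) (fun X hX => two_dvd_toCmp hX)

/-- **[WD-LIM]** the weight `i + 1` datum -/
theorem exists_wd {i : ℕ} (F : Fam i) (hk : F.Ker) :
    ∃ w : WD i, (∀ a : w.T, ∃ X, (2 : w.T) ∣ a - w.ev X) ∧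
      (∀ X, (2 : w.T) ∣ w.ev X → ∀ f ∈ Rk i, FreeAlgebra.lift ℤ hbar X f = 0) := by
  obtain ⟨w, h1, h2⟩ := exists_wd_abs F (TR i) (TR_tf i) (wT i).toRingHom (wT_surj i) hk
    (fun X hX => Subtype.ext hX)
  refine ⟨w, h1, fun X hX f hf => ?_⟩
  have h5 : wd i X = 0 := wT_two (h2 X hX)
  have h6 := wd_coe i X ⟨f, hf⟩
  rw [h5] at h6
  exact h6.symm

end Vale.Agent.P022.H20.L3
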