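import Vale.Agent.P022.H239.L3.LowDef
import Vale.Agent.P022.H20.L3.WdLim

/-! # P022-L3, row [WD-LIM]: the weight datum with its lower side -/

noncomputable section

namespace Vale.Agent.P022.H20.L3

open Vale.Agent.P022 Vale.Agent.P022.H132.Z Vale.Agent.P022.H239.L3

theorem exists_low {i : ℕ} (F : Fam i) (hk : F.Ker) : ∃ w : WD i, Low w := by
  obtain ⟨w, h1, h2⟩ := exists_wd F hk
  exact ⟨w, ⟨h1, fun X hX f hf => h2 X hX f (Rk'_le _ hf)⟩⟩

end Vale.Agent.P022.H20.L3
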